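import Vale.Agent.P270F.Sf.Sfc
import Vale.Agent.P270F.C12a

/-!
# P270F, block SF: the result
-/

namespace Vale.Agent.P270F.Sf

theorem sfc : Tg.SFC := sfc_of c12

end Vale.Agent.P270F.Sf
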