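import Vale.Agent.P270F.Sf.Slc
import Vale.Agent.P270F.C12
import Vale.Agent.P270F.Tg.Defs
import Vale.Agent.P285S.Sf.All

/-!
# P270F, block SF: surfaces of numerical dimension one on a fourfold with a torsion adjoint class
-/

open scoped Manifold ContDiff Topology
open Set Filter Function
open Vale.Agent.P272.K Vale.Agent.P285.H281.FD Vale.Agent.P281Z Vale.Agent.P280Z
open Vale.Agent.P277.HD (pull)
open Vale.Agent.P285N (Pr)
open Vale.Agent.P285W Vale.Agent.P285W.J Vale.Agent.P285W.Bs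
open Vale.Agent.P285S Vale.Agent.P285S.Sf
open Vale.Agent.P285S.N4 (Nz nze znz exz)
open Vale.Agent.P270G (Cw Nl)

noncomputable section

namespace Vale.Agent.P270F.Sf

variable {T : CT} (hT : T.OK)

include hT

/-- trivial curves are mapped to trivial curves -/
theorem tr_pre {d n : ℕ} {B : Mf d} {U : Mf n} {f : B.X → U.X} (hf : HolM d n f) (l : T.H U) :
    Tr T B (T.pull hf l) ⊆ f ⁻¹' Tr T U l ∪ {y | ¬ Imm d n f y} := by
  rintro _ ⟨C, g, hg, hC, ⟨x, rfl⟩, ⟨c, c', hc⟩, h0⟩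
  by_cases k : ∃ c c', f (g c) ≠ f (g c')
  · exact .inl ⟨C, _, hf.comp hg, hC, ⟨x, rfl⟩, k, by rwa [hT.rg.pull_comp hg hf _ fun _ => rfl]⟩
  push Not at k
  refine .inr fun hi => ?_
  obtain ⟨O, o1, o2⟩ := hi.inj (hf.at _)
  refine (Thin.pre_of_ex (an_point (g x)) hg ?_).freq x
    ((hg.cont.continuousAt.eventually o1).mono fun y hy j => j (o2 hy (mem_of_mem_nhds o1) (k y x)))
  by_contra! j
  exact hc ((j c).trans (j c').symm)

/-- two general members of the free system -/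
theorem surf (h12 : C12) {κ ι : Type} [Fintype κ] {A : Pr 4 κ ι} {m : κ → ℤ} {N : ℕ} {U : Mf 4}
    {ψ : A.Z.X → U.X} (hψ : HolM 4 4 ψ) {L : Bd U.X} {D : Bd A.Z.X} {z : T.H A.Z} (cw : Cw A m N)
    (pU : U.Prj) (lL : IsLB 4 L) (nL : P285N.Tp.Nf U L) (lD : IsLB 4 D) (bD : Bpf 4 D)
    (hS : Neg 4 (ψ ⁻¹' Tr T U (T.c1 U L) ∪ {y | ¬ Imm 4 4 ψ y})) (h3 : T.c1 A.Z D ^ 3 = 0)
    (hz : 0 < T.int A.Z (T.c1 A.Z D * (T.c1 A.Z D * z)))
    (sq : T.int A.Z (T.c1 A.Z D * (T.c1 A.Z D * T.pull hψ (T.c1 U L) ^ 2)) = 0)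
    (ng : ∀ k, m k < 0 → Nl T A k (T.c1 A.Z D * (T.c1 A.Z D * T.pull hψ (T.c1 U L)))) : False := by
  obtain ⟨κ₁, ι₁, _, B, m₁, i, hi, s⟩ := slc (d := 2) hT cw.ok cw.klt lD bD hS hz
  have e1 := hT.c1.pull hi D lD
  have l1 := hi.lb lD
  have b1 := Un.bpf_pull hi bD
  obtain ⟨κ₂, ι₂, _, C, m₂, j, hj, t⟩ := slc (d := 1) (z := T.pull hi z) hT s.ok s.klt l1 b1 s.neg
    (by rw [e1, ← map_mul]; exact s.pos)
  have nh : Nf T A.Z (T.c1 A.Z D) := bf_nf hT ⟨D, lD, bD, rfl⟩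
  have nl := nf_pull hT hψ (nf_of hT pU lL nL)
  have le : ∀ y, Mn T A.Z y → T.int A.Z (T.c1 A.Z D * (T.c1 A.Z D * y)) = 0 →
      T.int C.Z (T.pull hj (T.pull hi y)) = 0 := fun y hy h0 => by
    refine le_antisymm ((t.le _ (mn_pull hT hi hy)).trans ?_)
      (mn_int hT (mn_pull hT hj (mn_pull hT hi hy)))
    rw [e1, ← map_mul]
    exact (s.le _ (nh.mn.mul hy)).trans_eq h0
  have tor : cls 2 (pull j (pull i D)) = 0 := by
    obtain ⟨H, h1, h2⟩ := cw.ok.prj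
    have k1 := hT.c1.pos _ H h1 h2
    have k2 := kc_pull hT hj t.imm (kc_pull hT hi s.imm k1)
    have k3 := nf_pull hT hj (nf_pull hT hi nh)
    refine P270G.Fy2H.triv hT t.ok.conn k2 (hj.lb l1) (Un.bpf_pull hj b1) ?_
    rw [hT.c1.pull hj _ l1, e1]
    refine hod (d := 0) hT t.ok.conn k2 (nf_ty hT k3) (nf_dg hT k3) ?_
      (mn_int hT ((k3.mn.mul k3.mn).mul ((kc_nf hT k2).mn.pow 0)))
    rw [zero_add 1, pow_one, ← map_mul, ← map_mul]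
    refine le _ (nh.mn.mul (kc_nf hT k1).mn) ?_
    rw [← mul_assoc, ← mul_assoc, ← pow_two, ← pow_succ, h3, zero_mul, map_zero]
  have hk := hi.comp hj
  have hf := hψ.comp hk
  have e2 : T.c1 C.Z (pull (fun x => ψ (i (j x))) L) =
      T.pull hj (T.pull hi (T.pull hψ (T.c1 U L))) := by
    rw [hT.c1.pull hf L lL, hT.rg.pull_comp hk hψ hf fun _ => rfl,
      hT.rg.pull_comp hj hi hk fun _ => rfl]
  obtain ⟨r, r0, hr⟩ := cw.tor
  refine h12 T hT κ₂ ι₂ C m₂ N _ ⟨t.ok, t.klt, t.conn, r, r0, ?_⟩ (hf.lb lL)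
    (Tp.nf_comp hf pU lL nL) ?_ (fun k hk => ?_) (t.neg.mono fun y hy => ?_)
  · rw [t.cl, tor, smul_zero, add_zero, cls_pull hj s.ok.lb, s.cl, map_add, map_nsmul,
      ← cls_pull hj l1, tor, smul_zero, add_zero, cls_pull hi cw.ok.lb, ← map_nsmul, ← map_nsmul,
      hr, map_zero, map_zero]
  · rw [e2, ← map_pow, ← map_pow]
    exact le _ (nl.mn.pow 2) sq
  · obtain ⟨k₁, a1, a2⟩ := t.nl k hk
    obtain ⟨k₀, a3, a4⟩ := s.nl k₁ a1
    rw [e2]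
    refine a2 _ (mn_pull hT hi nl.mn) ?_
    rw [e1, ← map_mul]
    exact a4 _ (nh.mn.mul nl.mn) (ng k₀ a3)
  · rw [hT.c1.pull hf L lL] at hy
    exact (tr_pre hT hf _ hy).imp id fun a b => a (.comp (f := fun x => i (j x)) (hψ.at _) (hk.at _)
      b (.comp (hi.at _) (hj.at _) (s.imm _) (t.imm _)))

omit hT in
theorem sfc_of (h12 : C12) : Tg.SFC := by
  intro T hT Y L H κ ι _ A m N u S₀ hb hν hTr cw hu hN hF
  classical
  have hA := cw.ok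
  have bz : O.Bz Y L H := ⟨hb.conn, hb.lL, hb.lA, hb.pos, hb.bA⟩
  have cz : Cz T Y (T.c1 Y L) (T.c1 Y H) := ⟨bz.cp, bz.nef hT, bz.kc0 hT, H, hb.lA, hb.bA, rfl⟩
  have nL : P285N.Tp.Nf Y L := Tp.nf_of hb.lA hb.lL fun i M h1 h2 =>
    P285N.Xc.piso 4 Y _ _ (lb_mul (lb_pow hb.lL i) hb.lA) h1 (by
      rw [cls_mul (lb_pow hb.lL i) hb.lA, cls_pow hb.lL, h2, add_comm]) (hb.pos i)
  obtain ⟨X, π, hπ, h, hX⟩ := xd T hT _ _ _ cz (cff T hT Y _ _ cz.cp hF)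
  obtain ⟨-, g2⟩ := hg T hT _ X π hπ _ _ h cz hX
  obtain ⟨D, lD, bD, rfl⟩ := hX.bf
  set l := T.c1 Y L with el
  set a := T.c1 Y H
  set h := T.c1 X D with eh
  obtain ⟨x₀, hx₀⟩ := hX.imm
  have cX := hX.cp.conn
  obtain ⟨sπ, dom⟩ := surj T hT _ _ X Y π hπ _ 1 cX hb.conn (dg_pow hT (hT.po.deg cz.kc) 4) (by
    rw [mul_one, map_pow]; exact (imm_pos hT hπ hx₀ cz.kc).ne')
  have nl := nf_pull hT hπ cz.nef
  have nh := bf_nf hT hX.bf
  have mz : Mn T X (T.pull hπ l * h ^ 2) := nl.mn.mul (nh.mn.pow 2)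
  by_contra hV
  obtain ⟨R, ρ, r1, r2, r3, r4⟩ := P285W.O.JacH.along hT hπ (holM_id (X := X.X))
  obtain ⟨b, hb'⟩ := r1.cover x₀
  have z1 : Nz T X (T.pull hπ l * h ^ 2) {x | ¬ Imm 4 4 π x} := by
    simpa only [r3] using znz T hT 4 X R ρ _ hX.cp r1 r2
      (KodA.dense_nz r1 r2 hb' ((r3 x₀).2 hx₀ b hb')) mz (by
        rw [r4, hT.rg.pull_id, hT.rg.pull_id]; exact hX.ram)
  have z2 : ∀ k, m k < 0 → Nz T X (T.pull hπ l * h ^ 2) (π ⁻¹' (u '' A.G k)) := by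
    intro k hk d U p hp e hU hr
    obtain rfl : 3 = d := Nat.succ_injective e
    by_cases i1 : ∃ x, Imm 3 4 (fun x => π (p x)) x
    · obtain ⟨x, hx⟩ := i1
      obtain ⟨E, c, e1, e2⟩ := B2.Md.key hT cz.cp hU (hπ.comp hp) hx
      refine znz T hT 4 X (pull π E.M) _ _ hX.cp (hπ.lb E.lb) (hπ.sec E.sec)
        ((dom _ (Ps.thin_z E.lb E.sec E.dn).neg).dense.mono fun _ k => not_not.1 k) mz ?_ 3 U p hp e
        hU (range_subset_iff.2 e1)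
      rw [hT.c1.pull hπ _ E.lb]
      exact g2 hV hν.2 _ ⟨_, _, E.lb, E.sec, E.dn, rfl⟩ fun y hy => by
        rw [mul_assoc, e2, hN k hk y hy 3 U _ (hπ.comp hp) rfl hU
          (range_subset_iff.2 fun z => hr (mem_range_self z)), mul_zero]
    by_cases i2 : ∃ x, Imm 3 4 p x
    · refine z1 3 U p hp e hU (range_subset_iff.2 fun x k => ?_)
      obtain ⟨y, y1, y2⟩ := ((((nim 3 4 U X p hU.conn hp).1 i2).freq x).and_eventually
        (hp.cont.continuousAt.eventually (Imm.near k (hπ.at _)))).exists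
      exact i1 ⟨y, .comp (f := p) (hπ.at _) (hp.at _) y2 (not_not.1 y1)⟩
    · exact Ps.van0 hT hp (not_exists.1 i2) _
  obtain ⟨Q, t1, t2⟩ := Nim.gen0 hπ
  have hu' := hu.mono (t1.union hu.thin) subset_union_right
  obtain ⟨M, q, ε, fp, pM⟩ := fpm 4 4 4 4 X Y A.Z π u _ rfl hπ hu.hol hu'.thin.an
    (fun x k => t2 x fun i => k (.inl i)) hX.cp.prj hA.prj
  have hε := fpb 4 4 X Y A.Z π u _ M q ε fp hπ cX sπ hu'
  have cM := hε.conn
  have hq := fp.hπ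
  obtain ⟨z₀, hz₀⟩ := fp.dense.nonempty
  have t0 : Thin 4 ({x | ¬ Imm 4 4 q x} ∪ q ⁻¹' (off A.G)ᶜ) :=
    ((nim 4 4 M A.Z q cM hq).1 ⟨z₀, imm_iff_sbm.2 (fp.sbm z₀ hz₀)⟩).union
      (Thin.pre_of_ex (snc_thin_off hA.snc).1 hq (((fp.sbm z₀ hz₀).freq (hq.at z₀)
        (mem_closure_iff_frequently.1 ((snc_thin_off hA.snc).2 _))).exists))
  obtain ⟨I, e⟩ := idl 4 M _ t0.1
  obtain ⟨W⟩ := Nt.resl 4 M Empty Empty.elim I (Nt.snc_empty _ _) (e ▸ t0.2)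
  have hw := W.md.hol
  have hψ : HolM 4 4 fun y => q (W.w y) := hq.comp hw
  have cW : Cp W.V₁ := ⟨W.md.conn, W.prj pM⟩
  have := cW.conn
  obtain ⟨m₁, a1, a2, a3, -⟩ := Lq.upp 4 κ _ ι m N A W.V₁ _ W.G₁ hA cW.conn cW.prj hψ W.snc W.conn
    fun y hy => by
      have k := ((W.off y).1 hy).2
      exact ⟨.comp (f := W.w) (hq.at _) (hw.at _) (not_not.1 fun c => k (e ▸ .inl c)) (W.md.imm k),
        not_not.1 fun c => k (e ▸ .inr c)⟩
  have hθ := hε.comp rem W.md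
  have hp := hθ.hol
  have hf := hπ.comp hp
  have cm := fun b => hT.rg.pull_comp hp hπ hf (fun _ => rfl) b
  have e1 := hT.c1.pull hp D lD
  obtain ⟨v, hv, -⟩ := Ps.fub1 hT cX ((hT.po.kah X).2 (InjH.kc hT hX.cp)) hp
  obtain ⟨y₀, y1⟩ := (hθ.pre_thin (((nim 4 4 X Y π cX hπ).1 ⟨x₀, hx₀⟩).union
    hθ.thin)).dense.nonempty
  have i1 : Imm 4 4 (fun x => ε (W.w x)) y₀ := hθ.imm fun j => y1 (.inr j)
  obtain ⟨r, r0, hr⟩ := cw.tor
  refine surf hT h12 (A := Lq.up A N W.V₁ _ W.G₁) hf (z := T.pull hp (T.pull hπ a ^ 2))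
    ⟨a1, fun k => (a1.le k).lt_of_ne fun c => ?_, W.conn, r, r0, ?_⟩ cz.cp.prj hb.lL nL (hp.lb lD)
    (Un.bpf_pull hp bD) ((hθ.pre_neg (dom _ hTr)).union ((nim 4 4 W.V₁ Y _ cW.conn hf).1
      ⟨y₀, .comp (f := fun x => ε (W.w x)) (hπ.at _) (hp.at _) (not_not.1 fun j => y1 (.inl j))
        i1⟩).neg) ?_ ?_ ?_ fun k hk O σ hO => ?_
  · obtain ⟨y, hy⟩ := (W.conn k).nonempty
    obtain ⟨j, j1, -⟩ := a2 k c y hy
    exact (cw.klt j).ne j1
  · refine (congrArg (r • ·) (cls_pull hψ hA.lb)).trans ?_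
    rw [← map_nsmul, hr, map_zero]
  · rw [e1, ← map_pow, hX.cube, map_zero]
  · rw [e1, ← map_mul, ← map_mul]
    exact Rsv.up hT hp cX hX.cp.prj i1 (hX.pos.trans_eq (congrArg _ (by ring)))
  · rw [e1, cm, ← map_pow, ← map_mul, ← map_mul, hv, ← mul_zero v, ← hX.sq]
    congr 2
    ring
  rw [e1, cm, ← map_mul, ← map_mul, show h * (h * T.pull hπ l) = T.pull hπ l * h ^ 2 by ring]
  let C : Option (Option {k // m k < 0}) → Set X.X := fun o => o.elim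
    ((fun x => ε (W.w x)) '' {x | ¬ Imm 4 4 (fun x => ε (W.w x)) x})
    fun o => o.elim {x | ¬ Imm 4 4 π x} fun k => π ⁻¹' (u '' A.G k)
  have z3 := nz_cov (C := C) (Z := ⋃ o, C o) (fun o => match o with
    | none => rem 4 4 W.V₁ X _ _ hp (Nim.an_imm hp)
    | some none => Nim.an_imm hπ
    | some (some k) => (rem 4 4 A.Z Y u _ hu.hol (snc_thin hA.snc k.1).1).pre hπ)
    (fun o => match o with
    | none => exz T hT 4 W.V₁ X _ _ _ hθ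
    | some none => z1
    | some (some k) => z2 k.1 k.2) fun x => mem_iUnion.1
  refine nze T hT 3 W.V₁ O σ _ cW hO.lb hO.sec ((P277Z.Slc.Dv.dense_compl hO.ex).mono
    fun x k => (P270G.Fy2H.nz hO x).2 k) fun d U p hp' e hU hr => ?_
  rw [← hT.rg.pull_comp hp' hp (hp.comp hp') fun _ => rfl]
  refine z3 d U _ (hp.comp hp') e hU (range_subset_iff.2 fun x => by_contra fun i2 => ?_)
  have i3 : Imm 4 4 (fun x => ε (W.w x)) (p x) := by_contra fun i3 =>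
    i2 (mem_iUnion.2 ⟨none, _, i3, rfl⟩)
  have i4 : Imm 4 4 π (ε (W.w (p x))) := by_contra fun i4 => i2 (mem_iUnion.2 ⟨some none, i4⟩)
  rcases a3 k hk (p x) (not_not.1 fun c => hr (mem_range_self x) ((P270G.Fy2H.nz hO _).2 c)) with
    i5 | ⟨k, k1, k2⟩
  · exact i5 (.of_comp (hu.hol.at _) (hψ.at _) ((Imm.comp (f := fun x => ε (W.w x)) (hπ.at _)
      (hp.at _) i4 i3).cng (.of_forall fun _ => fp.comm _)))
  · exact i2 (mem_iUnion.2 ⟨some (some ⟨k, k1⟩), _, k2, (fp.comm _).symm⟩)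

end Vale.Agent.P270F.Sf
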