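import Vale.Agent.P270G.Fy2
import Vale.Agent.P270G.Bern
import Vale.Agent.P285S.N4.Nze

/-!
# P270F, block SF: a component of a general member of a free linear system
-/

open scoped Manifold ContDiff Topology
open Set Filter Function
open Vale.Agent.P272.K Vale.Agent.P285.H281.FD Vale.Agent.P281Z Vale.Agent.P280Z
open Vale.Agent.P277Z.Slc (IsDiv Snc lin)
open Vale.Agent.P277.HD (pull)
open Vale.Agent.P285N Vale.Agent.P285W.J
open Vale.Agent.P285S.Mm (mkpr)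
open Vale.Agent.P285S.Mm.RefH (cls_par sum_par)
open Vale.Agent.P285S.N4 (nze znz)
open Vale.Agent.P270G Vale.Agent.P270G.Fy2H

noncomputable section

namespace Vale.Agent.P270F.Sf

/-- the output of `slc` -/
structure Sl (T : CT) {d : ℕ} {κ ι κ' ι' : Type} [Fintype κ'] (A : Pr (d + 1) κ ι) (m : κ → ℤ)
    (N : ℕ) (D : Bd A.Z.X) (S : Set A.Z.X) (z : T.H A.Z) (B : Pr d κ' ι') (m' : κ' → ℤ)
    {i : B.Z.X → A.Z.X} (hi : HolM d (d + 1) i) : Prop where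
  ok : B.Ok m' N
  klt : ∀ l, m' l < N
  conn : ∀ l, IsConnected (B.G l)
  imm : ∀ y, Imm d (d + 1) i y
  neg : Neg d (i ⁻¹' S)
  pos : 0 < T.int B.Z (T.pull hi z)
  cl : cls d B.P = cls d (pull i A.P) + N • cls d (pull i D)
  le : ∀ y, Mn T A.Z y → T.int B.Z (T.pull hi y) ≤ T.int A.Z (T.c1 A.Z D * y)
  nl : ∀ k, m' k < 0 → ∃ j, m j < 0 ∧ ∀ y, Mn T A.Z y →
    Nl T A j (T.c1 A.Z D * y) → Nl T B k (T.pull hi y)

theorem slc {T : CT} (hT : T.OK) {d : ℕ} {κ ι : Type} [Fintype κ] {A : Pr (d + 1 + 1) κ ι}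
    {m : κ → ℤ} {N : ℕ} {D : Bd A.Z.X} {S : Set A.Z.X} {z : T.H A.Z} (hA : A.Ok m N)
    (hm : ∀ l, m l < N) (lW : IsLB (d + 1 + 1) D) (hW : Bpf (d + 1 + 1) D) (hS : Neg (d + 1 + 1) S)
    (hz : 0 < T.int A.Z (T.c1 A.Z D * z)) :
    ∃ (κ' ι' : Type) (_ : Fintype κ') (B : Pr (d + 1) κ' ι') (m' : κ' → ℤ) (i : B.Z.X → A.Z.X)
      (hi : HolM (d + 1) (d + 1 + 1) i), Sl T A m N D S z B m' hi := by
  classical
  obtain ⟨Δ, σΔ, hΔ, hs, hN⟩ := bern _ A.Z _ κ A.G S lW hW hA.snc hS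
  obtain ⟨p, G', par, O', σ', hc, hs', hO'⟩ := cmp hs
  obtain ⟨O, σ, hO⟩ := (Hyp.of_snc hA.snc).exists_div
  obtain ⟨O₀, σ₀, hO₀, e1, e2⟩ : ∃ (O₀ : Option κ → Bd A.Z.X) (σ₀ : ∀ o, (O₀ o).ι → A.Z.X → ℂ),
      (∀ o, IsDiv _ (o.elim Δ A.G) (O₀ o) (σ₀ o)) ∧ O₀ none = D ∧ ∀ l, O₀ (some l) = O l :=
    ⟨fun o => o.elim _ O, fun o => Option.rec σΔ σ o, fun o => Option.rec hΔ hO o, rfl,
      fun _ => rfl⟩
  have lP := lb_mul hA.lb (lb_pow lW N)
  obtain ⟨Ω, hΩ⟩ := mkpr _ (Fin p) A.Z G' O' σ' _ (fun j => (par j).elim (N : ℤ) m) N hA.conn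
    hA.prj hs' hO' lP hA.pos hA.even (fun j => by
      rcases par j with _ | l
      exacts [le_rfl, hA.le l]) (by
      rw [← sum_par hc hO₀ hO' fun o => o.elim (N : ℤ) m, Fintype.sum_option,
        cls_mul hA.lb (lb_pow lW N), cls_pow lW, Xc.cls_eq _ κ ι m N A O σ hA hO]
      simp only [Option.elim, e1, e2, natCast_zsmul]
      abel)
  have c1 : ∀ b, T.int A.Z (T.c1 A.Z D * b) =
      ∑ j, if par j = none then T.int A.Z (T.c1 A.Z (O' j) * b) else 0 := fun b => by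
    have l1 := lb_lin (fun j => (hO' j).lb) fun j => if par j = none then 1 else 0
    obtain ⟨t, ht⟩ := (cls_eq lW l1).1 (by
      rw [cls_lin fun j => (hO' j).lb, ← e1]
      refine (cls_par hc hO₀ hO' none).trans (Finset.sum_congr rfl fun j _ => ?_)
      split_ifs <;> rfl)
    rw [(Ld.iso _ _ _ t lW l1 ht).1 T hT.c1, hT.c1.lin _ _ _ fun j => (hO' j).lb, Finset.sum_mul,
      map_sum]
    refine Finset.sum_congr rfl fun j _ => ?_
    split_ifs <;> simp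
  have c2 : ∀ b, (∀ j, par j = none → 0 ≤ T.int A.Z (T.c1 A.Z (O' j) * b)) → ∀ j, par j = none →
      T.int A.Z (T.c1 A.Z (O' j) * b) ≤ T.int A.Z (T.c1 A.Z D * b) := fun b h j hj => by
    rw [c1, ← if_pos hj (t := T.int A.Z (T.c1 A.Z (O' j) * b)) (e := 0)]
    refine Finset.single_le_sum (f := fun j => if par j = none then
      T.int A.Z (T.c1 A.Z (O' j) * b) else 0) (fun k _ => ?_) (Finset.mem_univ j)
    split_ifs with hk
    exacts [h k hk, le_rfl]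
  have c3 : ∀ b, Mn T A.Z b → ∀ j, par j = none →
      T.int A.Z (T.c1 A.Z (O' j) * b) ≤ T.int A.Z (T.c1 A.Z D * b) := fun b h =>
    c2 b fun j _ => ef_int hT (ef (hO' j)) h
  have st := fun j (hj : par j = none) => stratum hΩ (j := j) (by rw [hj]; rfl) (hc.conn j) (hO' j)
  choose B i b1 b2 b3 b4 b5 b6 using st
  have o1 : ∀ j hj l, ∀ x ∈ off (B j hj).G, NZ (O l) (σ l) (i j hj x) := fun j hj l x hx =>
    (nz (hO l) _).2 fun k => by
      obtain ⟨j', k1, k2⟩ := hc.ex (some l) _ k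
      refine hx j' ?_
      rw [b6 j hj j' fun e => by simp [e, hj] at k1]
      exact k2
  have c4 : ∀ l y, Mn T A.Z y → ∀ j, par j = none →
      0 ≤ T.int A.Z (T.c1 A.Z (O' j) * (T.c1 A.Z (O l) * y)) := fun l y hy j hj => by
    have hi := (b4 j hj).emb.hol
    rw [hT.pl (b4 j hj), map_mul]
    exact ef_int hT ⟨_, _, hi.lb (hO l).lb, hi.sec (hO l).sec,
      (Hyp.of_snc (b1 j hj).snc).dense.mono (o1 j hj l), hT.c1.pull hi _ (hO l).lb⟩
      (mn_pull hT hi hy)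
  obtain ⟨j, hj, hz⟩ : ∃ j, par j = none ∧ 0 < T.int A.Z (T.c1 A.Z (O' j) * z) := by
    by_contra! k
    refine hz.not_ge ((c1 z).trans_le (Finset.sum_nonpos fun j _ => ?_))
    split_ifs with hj
    exacts [k j hj, le_rfl]
  have pl := hT.pl (b4 j hj)
  have hi := (b4 j hj).emb.hol
  obtain ⟨q, G'', pr, hc', Ω', hΩ'⟩ := conn (b1 j hj)
  have pp : ∀ k, ∃ l, par (pr k) = some l ∧ ∀ x ∈ G'' k, i j hj x ∈ A.G l := fun k => by
    have ne : pr k ≠ j := fun e => by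
      obtain ⟨x, hx⟩ := (hc'.conn k).nonempty
      have := hc'.sub k hx
      rw [e, b5] at this
      exact this
    have k1 : ∀ x ∈ G'' k, i j hj x ∈ G' (pr k) := fun x hx => by
      have := hc'.sub k hx
      rwa [b6 j hj _ ne] at this
    rcases e : par (pr k) with _ | l
    · obtain ⟨x, hx⟩ := (hc'.conn k).nonempty
      exact absurd (hc.uniq _ _ _ (e.trans hj.symm) (k1 x hx)
        ((b3 j hj).le (mem_range_self x))) ne
    · exact ⟨l, rfl, fun x hx => by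
        have := hc.sub _ (k1 x hx)
        rwa [e] at this⟩
  refine ⟨Fin q, _, inferInstance, ⟨(B j hj).Z, G'', (B j hj).U, (B j hj).g, Ω'⟩, _, i j hj, hi, hΩ',
    fun k => ?_, hc'.conn, (b4 j hj).emb.imm, hN _ _ (b2 j hj).emb ((b3 j hj).le.trans fun x hx => ?_),
    pl z ▸ hz, ?_, fun y hy => pl y ▸ c3 y hy j hj, fun k hk => ?_⟩
  · obtain ⟨l, e, -⟩ := pp k
    rw [e]
    exact hm l
  · have := hc.sub j hx
    rwa [hj] at this
  · refine (congrArg (cls _) (Xc.Str.P_eq (b2 j hj))).trans ((cls_pull hi lP).trans ?_)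
    rw [cls_mul hA.lb (lb_pow lW N), cls_pow lW, map_add, map_nsmul, ← cls_pull hi lW,
      ← cls_pull hi hA.lb]
  · obtain ⟨l, e, k1⟩ := pp k
    rw [e] at hk
    have cB : P285W.Bs.Cp (B j hj).Z := ⟨hΩ'.conn, hΩ'.prj⟩
    refine ⟨l, hk, fun y hy h0 O₁ σ₁ h₁ => nze T hT d _ O₁ σ₁ _ cB h₁.lb h₁.sec
      ((P277Z.Slc.Dv.dense_compl h₁.ex).mono fun x k => (nz h₁ x).2 k) fun e U f hf a1 a2 a3 =>
      znz T hT _ _ _ _ _ cB (hi.lb (hO l).lb) (hi.sec (hO l).sec)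
        ((Hyp.of_snc (b1 j hj).snc).dense.mono (o1 j hj l)) (mn_pull hT hi hy) ?_ e U f hf a1 a2
        (a3.trans fun x hx a => (nz (hO l) _).1 a (k1 x (not_not.1 fun b => hx ((nz h₁ x).2 b))))⟩
    rw [hT.c1.pull hi _ (hO l).lb, ← map_mul, ← pl]
    refine le_antisymm ((c2 _ (c4 l y hy) j hj).trans_eq ?_) (c4 l y hy j hj)
    rw [mul_left_comm]
    exact h0 _ _ (hO l)

end Vale.Agent.P270F.Sf
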